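import Vale.Agent.H69.CT.Conn
import Vale.Agent.H91.CT.Rel

/-!
Connectivity of classes of contingency tables by unit `2 x 2` moves (the relation `Move` of
`Vale.Agent.H91.CT.Basic`): inside a block, inside a row pair, inside a column pair and inside a
whole class.
-/

namespace Vale.Agent.H69.CT

open Finset Vale.Agent.H90 Vale.Agent.H88.CT Vale.Agent.H91.CT

variable {m n : ℕ} {r : Fin m → ℕ} {c : Fin n → ℕ}

theorem sw_ia (X : Omega r c) (i j : Fin m) (a b : Fin n) (hij : i ≠ j) (hab : a ≠ b)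
    (h1 : 1 ≤ X.1 i a) (h2 : 1 ≤ X.1 j b) :
    X.1 i a = (sw X i j a b hij hab h1 h2).1 i a + 1 := by
  have h := swFun_add X.1 i j a b hij hab h1 h2 i a
  have hji : j ≠ i := fun h => hij h.symm
  simp [hij, hab] at h
  show X.1 i a = swFun X.1 i j a b i a + 1
  omega

theorem sw_jb (X : Omega r c) (i j : Fin m) (a b : Fin n) (hij : i ≠ j) (hab : a ≠ b)
    (h1 : 1 ≤ X.1 i a) (h2 : 1 ≤ X.1 j b) :
    X.1 j b = (sw X i j a b hij hab h1 h2).1 j b + 1 := by
  have h := swFun_add X.1 i j a b hij hab h1 h2 j b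
  have hji : j ≠ i := fun h => hij h.symm
  have hba : b ≠ a := fun h => hab h.symm
  simp [hji, hba] at h
  show X.1 j b = swFun X.1 i j a b j b + 1
  omega

theorem sw_ib (X : Omega r c) (i j : Fin m) (a b : Fin n) (hij : i ≠ j) (hab : a ≠ b)
    (h1 : 1 ≤ X.1 i a) (h2 : 1 ≤ X.1 j b) :
    (sw X i j a b hij hab h1 h2).1 i b = X.1 i b + 1 := by
  have h := swFun_add X.1 i j a b hij hab h1 h2 i b
  have hba : b ≠ a := fun h => hab h.symm
  simp [hij, hba] at h
  show swFun X.1 i j a b i b = X.1 i b + 1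
  omega

theorem sw_ja (X : Omega r c) (i j : Fin m) (a b : Fin n) (hij : i ≠ j) (hab : a ≠ b)
    (h1 : 1 ≤ X.1 i a) (h2 : 1 ≤ X.1 j b) :
    (sw X i j a b hij hab h1 h2).1 j a = X.1 j a + 1 := by
  have h := swFun_add X.1 i j a b hij hab h1 h2 j a
  have hji : j ≠ i := fun h => hij h.symm
  simp [hji, hab] at h
  show swFun X.1 i j a b j a = X.1 j a + 1
  omega

theorem sw_blockRel (X : Omega r c) (i j : Fin m) (a b : Fin n) (hij : i ≠ j) (hab : a ≠ b)
    (h1 : 1 ≤ X.1 i a) (h2 : 1 ≤ X.1 j b) (i0 j0 : Fin m) (a0 b0 : Fin n)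
    (hrow : ∀ k, (k = i ∨ k = j) → (k = i0 ∨ k = j0))
    (hcol : ∀ l, (l = a ∨ l = b) → (l = a0 ∨ l = b0)) :
    BlockRel i0 j0 a0 b0 X (sw X i j a b hij hab h1 h2) := by
  intro k l hnot
  exact (sw_of_not X i j a b hij hab h1 h2 k l
    (fun hh => hnot ⟨hrow k hh.1, hcol l hh.2⟩)).symm

theorem sw_blockRel' (X : Omega r c) (i j : Fin m) (a b : Fin n) (hij : i ≠ j) (hab : a ≠ b)
    (h1 : 1 ≤ X.1 i a) (h2 : 1 ≤ X.1 j b) (i0 j0 : Fin m) (a0 b0 : Fin n)
    (hrow : ∀ k, (k = i ∨ k = j) → (k = i0 ∨ k = j0))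
    (hcol : ∀ l, (l = a ∨ l = b) → (l = a0 ∨ l = b0)) :
    BlockRel i0 j0 a0 b0 (sw X i j a b hij hab h1 h2) X := by
  intro k l hnot
  exact sw_of_not X i j a b hij hab h1 h2 k l
    (fun hh => hnot ⟨hrow k hh.1, hcol l hh.2⟩)

/-- The switch is a unit move (first form). -/
theorem sw_move1 (X : Omega r c) (i j : Fin m) (a b : Fin n) (hij : i ≠ j) (hab : a ≠ b)
    (h1 : 1 ≤ X.1 i a) (h2 : 1 ≤ X.1 j b) :
    Move i j b a X (sw X i j a b hij hab h1 h2) :=
  ⟨sw_blockRel X i j a b hij hab h1 h2 i j b a (fun _ h => h) (fun _ h => h.symm),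
    sw_ib X i j a b hij hab h1 h2, sw_ja X i j a b hij hab h1 h2,
    sw_ia X i j a b hij hab h1 h2, sw_jb X i j a b hij hab h1 h2⟩

/-- The switch is a unit move (second form). -/
theorem sw_move2 (X : Omega r c) (i j : Fin m) (a b : Fin n) (hij : i ≠ j) (hab : a ≠ b)
    (h1 : 1 ≤ X.1 i a) (h2 : 1 ≤ X.1 j b) :
    Move j i a b X (sw X i j a b hij hab h1 h2) :=
  ⟨sw_blockRel X i j a b hij hab h1 h2 j i a b (fun _ h => h.symm) (fun _ h => h),
    sw_ja X i j a b hij hab h1 h2, sw_ib X i j a b hij hab h1 h2,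
    sw_jb X i j a b hij hab h1 h2, sw_ia X i j a b hij hab h1 h2⟩

/-- The switch is the reverse of a unit move (third form). -/
theorem sw_move3 (X : Omega r c) (i j : Fin m) (a b : Fin n) (hij : i ≠ j) (hab : a ≠ b)
    (h1 : 1 ≤ X.1 i a) (h2 : 1 ≤ X.1 j b) :
    Move i j a b (sw X i j a b hij hab h1 h2) X :=
  ⟨sw_blockRel' X i j a b hij hab h1 h2 i j a b (fun _ h => h) (fun _ h => h),
    sw_ia X i j a b hij hab h1 h2, sw_jb X i j a b hij hab h1 h2,
    sw_ib X i j a b hij hab h1 h2, sw_ja X i j a b hij hab h1 h2⟩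

/-- The switch is the reverse of a unit move (fourth form). -/
theorem sw_move4 (X : Omega r c) (i j : Fin m) (a b : Fin n) (hij : i ≠ j) (hab : a ≠ b)
    (h1 : 1 ≤ X.1 i a) (h2 : 1 ≤ X.1 j b) :
    Move j i b a (sw X i j a b hij hab h1 h2) X :=
  ⟨sw_blockRel' X i j a b hij hab h1 h2 j i b a (fun _ h => h.symm) (fun _ h => h.symm),
    sw_jb X i j a b hij hab h1 h2, sw_ia X i j a b hij hab h1 h2,
    sw_ja X i j a b hij hab h1 h2, sw_ib X i j a b hij hab h1 h2⟩

theorem block_conn {α : Type*} (i j : Fin m) (hij : i ≠ j) (a b : Fin n) (hab : a ≠ b)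
    (g : Omega r c → α) (hg : ∀ X Y : Omega r c, Move i j a b X Y → g X = g Y) :
    ∀ X Y : Omega r c, BlockRel i j a b X Y → g X = g Y := by
  intro X Y
  induction' hN : D X Y using Nat.strong_induction_on with N ih generalizing X
  intro hR
  by_cases hXY : X = Y
  · rw [hXY]
  · obtain ⟨i', j', a', b', hij', hab', e1, e2, ha, hb, hc, hlt⟩ := exists_step X Y hXY
    have hi' : (i' = i ∨ i' = j) ∧ (a' = a ∨ a' = b) := by
      by_contra hcon
      have := hR i' a' hcon
      omega
    have hj' : (j' = i ∨ j' = j) ∧ (b' = a ∨ b' = b) := by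
      by_contra hcon
      have := hR j' b' hcon
      omega
    have hrow : ∀ k, (k = i' ∨ k = j') → (k = i ∨ k = j) := by
      rintro k (rfl | rfl)
      · exact hi'.1
      · exact hj'.1
    have hcol : ∀ l, (l = a' ∨ l = b') → (l = a ∨ l = b) := by
      rintro l (rfl | rfl)
      · exact hi'.2
      · exact hj'.2
    have hZY : BlockRel i j a b (sw X i' j' a' b' hij' hab' e1 e2) Y := by
      intro k l hnot
      rw [← hR k l hnot]
      exact sw_of_not X i' j' a' b' hij' hab' e1 e2 k l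
        (fun hh => hnot ⟨hrow k hh.1, hcol l hh.2⟩)
    have hfXZ : g X = g (sw X i' j' a' b' hij' hab' e1 e2) := by
      have hrows : (i' = i ∧ j' = j) ∨ (i' = j ∧ j' = i) := by
        rcases hi'.1 with h | h <;> rcases hj'.1 with h' | h'
        · exact absurd (h.trans h'.symm) hij'
        · exact Or.inl ⟨h, h'⟩
        · exact Or.inr ⟨h, h'⟩
        · exact absurd (h.trans h'.symm) hij'
      have hcols : (a' = a ∧ b' = b) ∨ (a' = b ∧ b' = a) := by
        rcases hi'.2 with h | h <;> rcases hj'.2 with h' | h'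
        · exact absurd (h.trans h'.symm) hab'
        · exact Or.inl ⟨h, h'⟩
        · exact Or.inr ⟨h, h'⟩
        · exact absurd (h.trans h'.symm) hab'
      rcases hrows with ⟨rfl, rfl⟩ | ⟨rfl, rfl⟩ <;> rcases hcols with ⟨rfl, rfl⟩ | ⟨rfl, rfl⟩
      · exact (hg _ _ (sw_move3 X _ _ _ _ hij' hab' e1 e2)).symm
      · exact hg _ _ (sw_move1 X _ _ _ _ hij' hab' e1 e2)
      · exact hg _ _ (sw_move2 X _ _ _ _ hij' hab' e1 e2)
      · exact (hg _ _ (sw_move4 X _ _ _ _ hij' hab' e1 e2)).symm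
    rw [hfXZ]
    exact ih (D (sw X i' j' a' b' hij' hab' e1 e2) Y) (by rw [← hN]; exact hlt) _ rfl hZY

theorem row_conn {α : Type*} (i j : Fin m) (hij : i ≠ j) (g : Omega r c → α)
    (hg : ∀ (a b : Fin n) (X Y : Omega r c), Move i j a b X Y → g X = g Y) :
    ∀ X Y : Omega r c, RowRel i j X Y → g X = g Y := by
  intro X Y
  induction' hN : D X Y using Nat.strong_induction_on with N ih generalizing X
  intro hR
  by_cases hXY : X = Y
  · rw [hXY]
  · obtain ⟨i', j', a, b, hij', hab, e1, e2, ha, hb, hc, hlt⟩ := exists_step X Y hXY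
    have hi' : i' = i ∨ i' = j := by
      by_contra hcon
      push Not at hcon
      have := congrFun (hR i' hcon.1 hcon.2) a
      omega
    have hj' : j' = i ∨ j' = j := by
      by_contra hcon
      push Not at hcon
      have := congrFun (hR j' hcon.1 hcon.2) a
      omega
    have hrow : ∀ k, (k = i' ∨ k = j') → (k = i ∨ k = j) := by
      rintro k (rfl | rfl)
      · exact hi'
      · exact hj'
    have hZY : RowRel i j (sw X i' j' a b hij' hab e1 e2) Y := by
      intro k hki hkj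
      funext l
      rw [← hR k hki hkj]
      exact sw_of_not X i' j' a b hij' hab e1 e2 k l
        (fun hh => by rcases hrow k hh.1 with h | h <;> contradiction)
    have hfXZ : g X = g (sw X i' j' a b hij' hab e1 e2) := by
      have hrows : (i' = i ∧ j' = j) ∨ (i' = j ∧ j' = i) := by
        rcases hi' with h | h <;> rcases hj' with h' | h'
        · exact absurd (h.trans h'.symm) hij'
        · exact Or.inl ⟨h, h'⟩
        · exact Or.inr ⟨h, h'⟩
        · exact absurd (h.trans h'.symm) hij'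
      rcases hrows with ⟨rfl, rfl⟩ | ⟨rfl, rfl⟩
      · exact hg _ _ _ _ (sw_move1 X _ _ _ _ hij' hab e1 e2)
      · exact hg _ _ _ _ (sw_move2 X _ _ _ _ hij' hab e1 e2)
    rw [hfXZ]
    exact ih (D (sw X i' j' a b hij' hab e1 e2) Y) (by rw [← hN]; exact hlt) _ rfl hZY

theorem col_conn {α : Type*} (a b : Fin n) (hab : a ≠ b) (g : Omega r c → α)
    (hg : ∀ (i j : Fin m) (X Y : Omega r c), Move i j a b X Y → g X = g Y) :
    ∀ X Y : Omega r c, ColRel a b X Y → g X = g Y := by
  intro X Y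
  induction' hN : D X Y using Nat.strong_induction_on with N ih generalizing X
  intro hR
  by_cases hXY : X = Y
  · rw [hXY]
  · obtain ⟨i, j, a', b', hij, hab', e1, e2, ha, hb, hc, hlt⟩ := exists_step X Y hXY
    have ha' : a' = a ∨ a' = b := by
      by_contra hcon
      push Not at hcon
      have := hR i a' hcon.1 hcon.2
      omega
    have hb' : b' = a ∨ b' = b := by
      by_contra hcon
      push Not at hcon
      have := hR j b' hcon.1 hcon.2
      omega
    have hcol : ∀ l, (l = a' ∨ l = b') → (l = a ∨ l = b) := by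
      rintro l (rfl | rfl)
      · exact ha'
      · exact hb'
    have hZY : ColRel a b (sw X i j a' b' hij hab' e1 e2) Y := by
      intro k l hla hlb
      rw [← hR k l hla hlb]
      exact sw_of_not X i j a' b' hij hab' e1 e2 k l
        (fun hh => by rcases hcol l hh.2 with h | h <;> contradiction)
    have hfXZ : g X = g (sw X i j a' b' hij hab' e1 e2) := by
      have hcols : (a' = a ∧ b' = b) ∨ (a' = b ∧ b' = a) := by
        rcases ha' with h | h <;> rcases hb' with h' | h'
        · exact absurd (h.trans h'.symm) hab'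
        · exact Or.inl ⟨h, h'⟩
        · exact Or.inr ⟨h, h'⟩
        · exact absurd (h.trans h'.symm) hab'
      rcases hcols with ⟨rfl, rfl⟩ | ⟨rfl, rfl⟩
      · exact hg _ _ _ _ (sw_move2 X _ _ _ _ hij hab' e1 e2)
      · exact hg _ _ _ _ (sw_move1 X _ _ _ _ hij hab' e1 e2)
    rw [hfXZ]
    exact ih (D (sw X i j a' b' hij hab' e1 e2) Y) (by rw [← hN]; exact hlt) _ rfl hZY

theorem all_conn {α : Type*} (g : Omega r c → α)
    (hg : ∀ (i j : Fin m) (a b : Fin n) (X Y : Omega r c), Move i j a b X Y → g X = g Y) :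
    ∀ X Y : Omega r c, g X = g Y := by
  intro X Y
  induction' hN : D X Y using Nat.strong_induction_on with N ih generalizing X
  by_cases hXY : X = Y
  · rw [hXY]
  · obtain ⟨i, j, a, b, hij, hab, e1, e2, ha, hb, hc, hlt⟩ := exists_step X Y hXY
    rw [hg _ _ _ _ _ _ (sw_move1 X i j a b hij hab e1 e2)]
    exact ih (D (sw X i j a b hij hab e1 e2) Y) (by rw [← hN]; exact hlt) _ rfl

end Vale.Agent.H69.CT
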