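import Mathlib

namespace Vale.Agent.H69.CT

open Finset

variable {ι : Type*} [Fintype ι] [DecidableEq ι]

/-- The box of all `x` with `x b ≤ s b` for every `b`. -/
def box (s : ι → ℕ) : Finset (ι → ℕ) :=
  Fintype.piFinset (fun b => Finset.range (s b + 1))

/-- The solid: points of the box with coordinate sum at most `R`. -/
def Sig (s : ι → ℕ) (R : ℕ) : Finset (ι → ℕ) :=
  (box s).filter (fun x => ∑ b, x b ≤ R)

/-- The layer: points of the box with coordinate sum exactly `R`. -/
def Lay (s : ι → ℕ) (R : ℕ) : Finset (ι → ℕ) :=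
  (box s).filter (fun x => ∑ b, x b = R)

/-- Sum of squares about the mean of `g` over `A`. -/
noncomputable def SS {α : Type*} (A : Finset α) (g : α → ℝ) : ℝ :=
  ∑ x ∈ A, g x ^ 2 - (∑ x ∈ A, g x) ^ 2 / (A.card : ℝ)

theorem mem_box {s : ι → ℕ} {x : ι → ℕ} : x ∈ box s ↔ ∀ b, x b ≤ s b := by
  simp [box, Fintype.mem_piFinset]

theorem sum_update_add (x : ι → ℕ) (b : ι) (v : ℕ) :
    ∑ c, Function.update x b v c + x b = ∑ c, x c + v := by
  have h1 := Finset.sum_update_of_mem (Finset.mem_univ b) x v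
  have h2 := Finset.add_sum_erase Finset.univ x (Finset.mem_univ b)
  rw [h1]
  have h3 : (Finset.univ : Finset ι) \ {b} = Finset.univ.erase b := by
    ext c; simp
  rw [h3]
  omega

/-- Two-block formula for the sum of squares about the mean. -/
theorem SS_union {α : Type*} [DecidableEq α] {A B : Finset α} (h : Disjoint A B) (g : α → ℝ) :
    SS (A ∪ B) g = SS A g + SS B g +
      ((B.card : ℝ) * ∑ x ∈ A, g x - (A.card : ℝ) * ∑ x ∈ B, g x) ^ 2 /
        ((A.card : ℝ) * B.card * ((A.card : ℝ) + B.card)) := by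
  unfold SS
  rw [Finset.sum_union h, Finset.sum_union h, Finset.card_union_of_disjoint h]
  push_cast
  rcases Nat.eq_zero_or_pos A.card with hA | hA
  · have : A = ∅ := Finset.card_eq_zero.mp hA
    subst this
    simp
  rcases Nat.eq_zero_or_pos B.card with hB | hB
  · have : B = ∅ := Finset.card_eq_zero.mp hB
    subst this
    simp
  have hA' : (0 : ℝ) < A.card := by exact_mod_cast hA
  have hB' : (0 : ℝ) < B.card := by exact_mod_cast hB
  field_simp
  ring

/-- If the sums of every function of `g` agree, so do the sums of squares about the mean. -/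
theorem SS_congr_sums {α β : Type*} {A : Finset α} {B : Finset β} {g : α → ℝ} {g' : β → ℝ}
    (h : ∀ φ : ℝ → ℝ, ∑ x ∈ A, φ (g x) = ∑ y ∈ B, φ (g' y)) : SS A g = SS B g' := by
  unfold SS
  have h1 := h (fun t => t ^ 2)
  have h2 := h (fun t => t)
  have h3 := h (fun _ => 1)
  simp only [Finset.sum_const, nsmul_eq_mul, mul_one] at h3
  rw [h1, h2, h3]

/-- The shift `y ↦ y + e_b` as a bijection of the box. -/
theorem box_shift (s : ι → ℕ) (b : ι) (Φ : (ι → ℕ) → ℝ) :
    ∑ x ∈ (box s).filter (fun x => x b ≠ 0), Φ x =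
      ∑ y ∈ (box s).filter (fun y => y b ≠ s b), Φ (Function.update y b (y b + 1)) := by
  refine Finset.sum_nbij' (fun x => Function.update x b (x b - 1))
    (fun y => Function.update y b (y b + 1)) ?_ ?_ ?_ ?_ ?_
  · intro x hx
    rw [Finset.mem_filter, mem_box] at hx ⊢
    obtain ⟨hx1, hx2⟩ := hx
    refine ⟨fun c => ?_, ?_⟩
    · by_cases hc : c = b
      · subst hc
        have := hx1 c
        simp only [Function.update_self]
        omega
      · rw [Function.update_of_ne hc]
        exact hx1 c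
    · have := hx1 b
      simp only [Function.update_self]
      omega
  · intro y hy
    rw [Finset.mem_filter, mem_box] at hy ⊢
    obtain ⟨hy1, hy2⟩ := hy
    refine ⟨fun c => ?_, ?_⟩
    · by_cases hc : c = b
      · subst hc
        have := hy1 c
        simp only [Function.update_self]
        omega
      · rw [Function.update_of_ne hc]
        exact hy1 c
    · simp only [Function.update_self]
      omega
  · intro x hx
    rw [Finset.mem_filter] at hx
    have h1 : x b - 1 + 1 = x b := by omega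
    simp only [Function.update_self, Function.update_idem, h1, Function.update_eq_self]
  · intro y hy
    simp only [Function.update_self, Function.update_idem, Nat.add_sub_cancel,
      Function.update_eq_self]
  · intro x hx
    rw [Finset.mem_filter] at hx
    have h1 : x b - 1 + 1 = x b := by omega
    simp only [Function.update_self, Function.update_idem, h1, Function.update_eq_self]

/-- Coordinate sum after raising coordinate `b` by one. -/
theorem sum_update_succ (y : ι → ℕ) (b : ι) :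
    ∑ c, Function.update y b (y b + 1) c = ∑ c, y c + 1 := by
  have := sum_update_add y b (y b + 1)
  omega

/-- A function that does not depend on coordinate `b`. -/
def Inv (b : ι) (F : (ι → ℕ) → ℝ) : Prop :=
  ∀ x y : ι → ℕ, (∀ c, c ≠ b → x c = y c) → F x = F y

omit [Fintype ι] in
theorem Inv.update {b : ι} {F : (ι → ℕ) → ℝ} (h : Inv b F) (x : ι → ℕ) (v : ℕ) :
    F (Function.update x b v) = F x :=
  h _ _ (fun _ hc => Function.update_of_ne hc _ _)

/-- Telescoping: the slice `x b = j` of `Sig R` is the slice `x b = j + 1` of `Sig (R + 1)`. -/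
theorem tele (s : ι → ℕ) (R : ℕ) (b : ι) (ub : (ι → ℕ) → ℝ) (hub : Inv b ub) (j : ℕ)
    (hj : j < s b) (φ : ℝ → ℝ) :
    ∑ x ∈ (Sig s R).filter (fun x => x b = j), φ (ub x) =
      ∑ x ∈ (Sig s (R + 1)).filter (fun x => x b = j + 1), φ (ub x) := by
  have h := box_shift s b (fun x => if x b = j + 1 ∧ ∑ c, x c ≤ R + 1 then φ (ub x) else 0)
  have hL : ∑ x ∈ (box s).filter (fun x => x b ≠ 0),
      (if x b = j + 1 ∧ ∑ c, x c ≤ R + 1 then φ (ub x) else 0)
      = ∑ x ∈ (Sig s (R + 1)).filter (fun x => x b = j + 1), φ (ub x) := by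
    unfold Sig
    simp only [Finset.sum_filter]
    refine Finset.sum_congr rfl (fun x _ => ?_)
    by_cases h1 : x b = j + 1 <;> by_cases h2 : ∑ c, x c ≤ R + 1 <;> simp [h1, h2]
  have hR : ∑ y ∈ (box s).filter (fun y => y b ≠ s b),
      (if (Function.update y b (y b + 1)) b = j + 1 ∧
          ∑ c, (Function.update y b (y b + 1)) c ≤ R + 1
        then φ (ub (Function.update y b (y b + 1))) else 0)
      = ∑ x ∈ (Sig s R).filter (fun x => x b = j), φ (ub x) := by
    unfold Sig
    simp only [Finset.sum_filter]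
    refine Finset.sum_congr rfl (fun y _ => ?_)
    simp only [Function.update_self, sum_update_succ, hub.update]
    by_cases h1 : y b = j <;> by_cases h2 : ∑ c, y c ≤ R <;> simp [h1, h2]
    omega
  rw [← hL, ← hR]
  exact h.symm

/-- The slice `x b = 0` of `Sig (R + 1)` is, through the values of a function not depending on
coordinate `b`, the layer `R + 1` together with the slice `x b = s b` of `Sig R`. -/
theorem zero_slice (s : ι → ℕ) (R : ℕ) (b : ι) (ub : (ι → ℕ) → ℝ) (hub : Inv b ub)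
    (φ : ℝ → ℝ) :
    ∑ x ∈ (Sig s (R + 1)).filter (fun x => x b = 0), φ (ub x) =
      ∑ x ∈ Lay s (R + 1) ∪ (Sig s R).filter (fun x => x b = s b), φ (ub x) := by
  refine Finset.sum_nbij'
    (fun y => if R + 1 ≤ ∑ c, y c + s b then Function.update y b (R + 1 - ∑ c, y c)
      else Function.update y b (s b))
    (fun x => Function.update x b 0) ?_ ?_ ?_ ?_ ?_
  · intro y hy
    simp only [Sig, Finset.mem_filter, mem_box] at hy
    obtain ⟨⟨hy1, hy2⟩, hy3⟩ := hy
    by_cases hc : R + 1 ≤ ∑ c, y c + s b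
    · rw [if_pos hc]
      apply Finset.mem_union_left
      simp only [Lay, Finset.mem_filter, mem_box]
      refine ⟨fun c => ?_, ?_⟩
      · by_cases hcb : c = b
        · subst hcb
          simp only [Function.update_self]
          omega
        · rw [Function.update_of_ne hcb]
          exact hy1 c
      · have := sum_update_add y b (R + 1 - ∑ c, y c)
        omega
    · rw [if_neg hc]
      apply Finset.mem_union_right
      simp only [Sig, Finset.mem_filter, mem_box]
      refine ⟨⟨fun c => ?_, ?_⟩, ?_⟩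
      · by_cases hcb : c = b
        · subst hcb
          simp only [Function.update_self]
          omega
        · rw [Function.update_of_ne hcb]
          exact hy1 c
      · have := sum_update_add y b (s b)
        omega
      · simp only [Function.update_self]
  · intro x hx
    have hx1 : x ∈ box s ∧ ∑ c, x c ≤ R + 1 := by
      rcases Finset.mem_union.mp hx with h | h
      · simp only [Lay, Finset.mem_filter] at h
        exact ⟨h.1, by omega⟩
      · simp only [Sig, Finset.mem_filter] at h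
        exact ⟨h.1.1, by omega⟩
    simp only [Sig, Finset.mem_filter, mem_box]
    refine ⟨⟨fun c => ?_, ?_⟩, ?_⟩
    · by_cases hcb : c = b
      · subst hcb
        simp only [Function.update_self]
        omega
      · rw [Function.update_of_ne hcb]
        exact (mem_box.mp hx1.1) c
    · have := sum_update_add x b 0
      omega
    · simp only [Function.update_self]
  · intro y hy
    simp only [Sig, Finset.mem_filter] at hy
    have hy0 : y b = 0 := hy.2
    by_cases hc : R + 1 ≤ ∑ c, y c + s b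
    · simp only [if_pos hc, Function.update_idem]
      rw [← hy0]
      exact Function.update_eq_self b y
    · simp only [if_neg hc, Function.update_idem]
      rw [← hy0]
      exact Function.update_eq_self b y
  · intro x hx
    have hsum := sum_update_add x b 0
    rcases Finset.mem_union.mp hx with h | h
    · simp only [Lay, Finset.mem_filter, mem_box] at h
      have hxb := h.1 b
      have hc : R + 1 ≤ ∑ c, Function.update x b 0 c + s b := by omega
      simp only [if_pos hc, Function.update_idem]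
      have : R + 1 - ∑ c, Function.update x b 0 c = x b := by omega
      rw [this]
      exact Function.update_eq_self b x
    · simp only [Sig, Finset.mem_filter, mem_box] at h
      have hxb := h.2
      have hc : ¬ (R + 1 ≤ ∑ c, Function.update x b 0 c + s b) := by omega
      simp only [if_neg hc, Function.update_idem]
      rw [← hxb]
      exact Function.update_eq_self b x
  · intro y hy
    by_cases hc : R + 1 ≤ ∑ c, y c + s b
    · simp only [if_pos hc, hub.update]
    · simp only [if_neg hc, hub.update]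

/-- Layer shift: a sum over layer `r + 1` of a function vanishing on `x b = 0` is a sum over
layer `r`. -/
theorem lay_shift (s : ι → ℕ) (b : ι) (r : ℕ) (Ψ : (ι → ℕ) → ℝ)
    (hΨ : ∀ x, x b = 0 → Ψ x = 0) :
    ∑ x ∈ Lay s (r + 1), Ψ x =
      ∑ y ∈ Lay s r, (if y b = s b then 0 else Ψ (Function.update y b (y b + 1))) := by
  have h := box_shift s b (fun x => if ∑ c, x c = r + 1 then Ψ x else 0)
  have hL : ∑ x ∈ (box s).filter (fun x => x b ≠ 0), (if ∑ c, x c = r + 1 then Ψ x else 0)
      = ∑ x ∈ Lay s (r + 1), Ψ x := by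
    unfold Lay
    simp only [Finset.sum_filter]
    refine Finset.sum_congr rfl (fun x _ => ?_)
    by_cases h1 : x b = 0
    · simp [h1, hΨ x h1]
    · simp [h1]
  have hR : ∑ y ∈ (box s).filter (fun y => y b ≠ s b),
      (if ∑ c, (Function.update y b (y b + 1)) c = r + 1
        then Ψ (Function.update y b (y b + 1)) else 0)
      = ∑ y ∈ Lay s r, (if y b = s b then 0 else Ψ (Function.update y b (y b + 1))) := by
    unfold Lay
    simp only [Finset.sum_filter, sum_update_succ]
    refine Finset.sum_congr rfl (fun y _ => ?_)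
    by_cases h1 : y b = s b <;> by_cases h2 : ∑ c, y c = r <;> simp [h1, h2]
  rw [← hL, ← hR]
  exact h

/-- Size-biasing with caps. -/
theorem size_bias (s : ι → ℕ) (b : ι) (F : (ι → ℕ) → ℝ) (hF : Inv b F) (r : ℕ) :
    ∑ x ∈ (box s).filter (fun x => ∑ c, x c < r), F x =
      ∑ x ∈ Lay s r, (x b : ℝ) * F x +
        ((s b : ℝ) + 1) *
          ∑ x ∈ (box s).filter (fun x => x b = s b ∧ ∑ c, x c < r), F x := by
  induction r with
  | zero =>
    have h1 : (box s).filter (fun x => ∑ c, x c < 0) = ∅ := by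
      apply Finset.filter_false_of_mem
      intro x _
      omega
    have h2 : (box s).filter (fun x => x b = s b ∧ ∑ c, x c < 0) = ∅ := by
      apply Finset.filter_false_of_mem
      intro x _
      omega
    rw [h1, h2]
    simp only [Finset.sum_empty, mul_zero, add_zero]
    symm
    apply Finset.sum_eq_zero
    intro x hx
    have hx0 : ∑ c, x c = 0 := (Finset.mem_filter.mp hx).2
    have hxb : x b = 0 := (Finset.sum_eq_zero_iff.mp hx0) b (Finset.mem_univ b)
    simp [hxb]
  | succ r ih =>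
    have hs := lay_shift s b r (fun x => (x b : ℝ) * F x) (by intro x hx; simp [hx])
    have h1 : ∑ x ∈ (box s).filter (fun x => ∑ c, x c < r + 1), F x =
        ∑ x ∈ (box s).filter (fun x => ∑ c, x c < r), F x + ∑ x ∈ Lay s r, F x := by
      unfold Lay
      simp only [Finset.sum_filter]
      rw [← Finset.sum_add_distrib]
      refine Finset.sum_congr rfl (fun x _ => ?_)
      rcases Nat.lt_trichotomy (∑ c, x c) r with h | h | h
      · have ha : ∑ c, x c < r + 1 := by omega
        have hb : ¬ (∑ c, x c = r) := by omega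
        simp [h, ha, hb]
      · have ha : ∑ c, x c < r + 1 := by omega
        have hb : ¬ (∑ c, x c < r) := by omega
        simp [h]
      · have ha : ¬ (∑ c, x c < r + 1) := by omega
        have hb : ¬ (∑ c, x c < r) := by omega
        have hc : ¬ (∑ c, x c = r) := by omega
        simp [ha, hb, hc]
    have h2 : ∑ x ∈ (box s).filter (fun x => x b = s b ∧ ∑ c, x c < r + 1), F x =
        ∑ x ∈ (box s).filter (fun x => x b = s b ∧ ∑ c, x c < r), F x +
          ∑ x ∈ Lay s r, (if x b = s b then F x else 0) := by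
      unfold Lay
      simp only [Finset.sum_filter]
      rw [← Finset.sum_add_distrib]
      refine Finset.sum_congr rfl (fun x _ => ?_)
      by_cases hxb : x b = s b
      · rcases Nat.lt_trichotomy (∑ c, x c) r with h | h | h
        · have ha : ∑ c, x c < r + 1 := by omega
          have hb : ¬ (∑ c, x c = r) := by omega
          simp [hxb, h, ha, hb]
        · have ha : ∑ c, x c < r + 1 := by omega
          have hb : ¬ (∑ c, x c < r) := by omega
          simp [hxb, h]
        · have ha : ¬ (∑ c, x c < r + 1) := by omega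
          have hb : ¬ (∑ c, x c < r) := by omega
          have hc : ¬ (∑ c, x c = r) := by omega
          simp [hxb, ha, hb, hc]
      · simp [hxb]
    rw [h1, ih, hs, h2, mul_add, Finset.mul_sum (s := Lay s r)]
    have h3 : ∑ x ∈ Lay s r, (x b : ℝ) * F x + ∑ x ∈ Lay s r, F x =
        ∑ y ∈ Lay s r, (if y b = s b then 0 else
            ((Function.update y b (y b + 1) b : ℕ) : ℝ) * F (Function.update y b (y b + 1))) +
          ∑ x ∈ Lay s r, ((s b : ℝ) + 1) * (if x b = s b then F x else 0) := by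
      rw [← Finset.sum_add_distrib, ← Finset.sum_add_distrib]
      refine Finset.sum_congr rfl (fun y _ => ?_)
      simp only [Function.update_self, hF.update]
      by_cases hyb : y b = s b
      · simp [hyb]
        ring
      · simp [hyb]
        ring
    linarith [h3]

/-- The diagonal trace `∑_{x ∈ layer r} ∑_b x_b (s_b + 1 - x_b)`. -/
noncomputable def aTr (s : ι → ℕ) (r : ℕ) : ℝ :=
  ∑ x ∈ Lay s r, ∑ b, (x b : ℝ) * ((s b : ℝ) + 1 - x b)

/-- Trace identity: `a (r + 1) = a r + (|s| - 2 r) |layer r|`. -/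
theorem aTr_succ (s : ι → ℕ) (r : ℕ) :
    aTr s (r + 1) = aTr s r + ((∑ b, (s b : ℝ)) - 2 * r) * (Lay s r).card := by
  unfold aTr
  rw [Finset.sum_comm]
  have h : ∀ b, ∑ x ∈ Lay s (r + 1), (x b : ℝ) * ((s b : ℝ) + 1 - x b) =
      ∑ y ∈ Lay s r, ((y b : ℝ) + 1) * ((s b : ℝ) - y b) := by
    intro b
    rw [lay_shift s b r (fun x => (x b : ℝ) * ((s b : ℝ) + 1 - x b))
      (by intro x hx; simp [hx])]
    refine Finset.sum_congr rfl (fun y _ => ?_)
    simp only [Function.update_self]
    by_cases h1 : y b = s b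
    · simp [h1]
    · simp only [h1, if_false]
      push_cast
      ring
  rw [Finset.sum_congr rfl (fun b _ => h b), Finset.sum_comm]
  have h2 : ∀ y ∈ Lay s r, ∑ b, ((y b : ℝ) + 1) * ((s b : ℝ) - y b) =
      ∑ b, (y b : ℝ) * ((s b : ℝ) + 1 - y b) + ((∑ b, (s b : ℝ)) - 2 * r) := by
    intro y hy
    have hy1 : ∑ b, y b = r := (Finset.mem_filter.mp hy).2
    have hy2 : (∑ b, (y b : ℝ)) = r := by exact_mod_cast hy1
    have h3 : ∀ b, ((y b : ℝ) + 1) * ((s b : ℝ) - y b) =
        (y b : ℝ) * ((s b : ℝ) + 1 - y b) + ((s b : ℝ) - 2 * y b) := by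
      intro b
      ring
    simp only [h3, Finset.sum_add_distrib, Finset.sum_sub_distrib, ← Finset.mul_sum, hy2]
  rw [Finset.sum_congr rfl h2, Finset.sum_add_distrib, Finset.sum_const, nsmul_eq_mul]
  ring

theorem Sig_succ (s : ι → ℕ) (R : ℕ) : Sig s (R + 1) = Sig s R ∪ Lay s (R + 1) := by
  ext x
  simp only [Sig, Lay, Finset.mem_filter, Finset.mem_union]
  constructor
  · rintro ⟨h1, h2⟩
    rcases Nat.lt_or_ge (∑ b, x b) (R + 1) with h | h
    · exact Or.inl ⟨h1, by omega⟩
    · exact Or.inr ⟨h1, by omega⟩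
  · rintro (⟨h1, h2⟩ | ⟨h1, h2⟩)
    · exact ⟨h1, by omega⟩
    · exact ⟨h1, by omega⟩

theorem Sig_Lay_disjoint (s : ι → ℕ) (R : ℕ) : Disjoint (Sig s R) (Lay s (R + 1)) := by
  rw [Finset.disjoint_left]
  intro x h1 h2
  simp only [Sig, Lay, Finset.mem_filter] at h1 h2
  omega

theorem card_Sig_succ (s : ι → ℕ) (R : ℕ) :
    ((Sig s (R + 1)).card : ℝ) = (Sig s R).card + (Lay s (R + 1)).card := by
  rw [Sig_succ, Finset.card_union_of_disjoint (Sig_Lay_disjoint s R)]
  push_cast
  ring

/-- The combinatorial inequality behind the step: `|s| σ_R ≤ a (R + 1) + 2 (R + 1) σ_R`. -/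
theorem aTr_bound (s : ι → ℕ) (R : ℕ) :
    (∑ b, (s b : ℝ)) * (Sig s R).card ≤ aTr s (R + 1) + 2 * ((R : ℝ) + 1) * (Sig s R).card := by
  induction R with
  | zero =>
    have h0 : Sig s 0 = Lay s 0 := by
      ext x
      simp [Sig, Lay]
    have ha0 : aTr s 0 = 0 := by
      unfold aTr
      apply Finset.sum_eq_zero
      intro x hx
      apply Finset.sum_eq_zero
      intro b _
      have hx0 : ∑ c, x c = 0 := (Finset.mem_filter.mp hx).2
      have hxb : x b = 0 := (Finset.sum_eq_zero_iff.mp hx0) b (Finset.mem_univ b)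
      simp [hxb]
    rw [aTr_succ, ha0, h0]
    have hc : (0 : ℝ) ≤ ((Lay s 0).card : ℝ) := Nat.cast_nonneg _
    push_cast
    nlinarith [hc]
  | succ R ih =>
    rw [aTr_succ s (R + 1), card_Sig_succ]
    have hc1 : (0 : ℝ) ≤ ((Lay s (R + 1)).card : ℝ) := Nat.cast_nonneg _
    have hc2 : (0 : ℝ) ≤ ((Sig s R).card : ℝ) := Nat.cast_nonneg _
    push_cast
    nlinarith [ih, hc1, hc2]

theorem SS_nonneg {α : Type*} (A : Finset α) (g : α → ℝ) : 0 ≤ SS A g := by
  unfold SS
  rcases Nat.eq_zero_or_pos A.card with hA | hA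
  · have : A = ∅ := Finset.card_eq_zero.mp hA
    subst this
    simp
  · have hA' : (0 : ℝ) < A.card := by exact_mod_cast hA
    have h := sq_sum_le_card_mul_sum_sq (s := A) (f := g)
    rw [sub_nonneg, div_le_iff₀ hA']
    linarith [h]

/-- For a nonempty set, `SS` is the sum of squared deviations from the mean. -/
theorem SS_eq_dev {α : Type*} (A : Finset α) (g : α → ℝ) (hA : A.Nonempty) :
    SS A g = ∑ x ∈ A, (g x - (∑ y ∈ A, g y) / A.card) ^ 2 := by
  have hA' : (0 : ℝ) < A.card := by exact_mod_cast Finset.card_pos.mpr hA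
  have h1 : ∀ x ∈ A, (g x - (∑ y ∈ A, g y) / A.card) ^ 2 =
      g x ^ 2 - 2 * ((∑ y ∈ A, g y) / A.card) * g x + ((∑ y ∈ A, g y) / A.card) ^ 2 := by
    intro x _
    ring
  rw [Finset.sum_congr rfl h1, Finset.sum_add_distrib, Finset.sum_sub_distrib,
    ← Finset.mul_sum, Finset.sum_const, nsmul_eq_mul]
  unfold SS
  field_simp
  ring

theorem arm_nonneg (k D E c t : ℝ) (hk : 0 < k) (hD : 0 ≤ D) (h0 : D = 0 → E = 0) :
    0 ≤ k * (E ^ 2 / D) - 2 * t * (c * E) + t ^ 2 * (c ^ 2 * D / k) := by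
  rcases hD.eq_or_lt with hD0 | hD0
  · have hE : E = 0 := h0 hD0.symm
    rw [hE, ← hD0]
    simp
  · have h : k * (E ^ 2 / D) - 2 * t * (c * E) + t ^ 2 * (c ^ 2 * D / k) =
        k / D * (E - t * c * D / k) ^ 2 := by
      field_simp
      ring
    rw [h]
    positivity

omit [DecidableEq ι] in
/-- The analytic core of the step: Cauchy-Schwarz on the new layer. -/
theorem core_ineq (N : Finset (ι → ℕ)) (R : ℕ) (hN : ∀ x ∈ N, ∑ b, x b = R + 1)
    (hN0 : N.Nonempty) (u : ι → (ι → ℕ) → ℝ) (sr ω I SG : ι → ℝ) (σ : ℝ) (hσ0 : 0 < σ)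
    (hω : ∀ b, 0 ≤ ω b) (hI : ∀ b, ω b = 0 → I b = 0)
    (hσ : ∀ b, σ = ∑ x ∈ N, (x b : ℝ) + (sr b + 1) * ω b)
    (hS : ∀ b, SG b = ∑ x ∈ N, (x b : ℝ) * u b x + (sr b + 1) * I b)
    (hcomb : (∑ b, sr b) * σ ≤
      ∑ x ∈ N, ∑ b, (x b : ℝ) * (sr b + 1 - x b) + 2 * ((R : ℝ) + 1) * σ) :
    ((N.card : ℝ) * ∑ b, SG b - σ * ∑ x ∈ N, ∑ b, u b x) ^ 2 / (σ * N.card * (σ + N.card))
      + SS N (fun x => ∑ b, u b x)
    ≤ (Fintype.card ι : ℝ) * ∑ b, (SS N (u b) +
        ((N.card : ℝ) * I b - ω b * ∑ x ∈ N, u b x) ^ 2 /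
          (ω b * N.card * (ω b + N.card))) := by
  obtain ⟨ℓ, hℓdef⟩ : ∃ ℓ : ℝ, ℓ = (N.card : ℝ) := ⟨_, rfl⟩
  have hℓ : 0 < ℓ := by
    rw [hℓdef]
    exact_mod_cast Finset.card_pos.mpr hN0
  obtain ⟨k, hkdef⟩ : ∃ k : ℝ, k = (Fintype.card ι : ℝ) := ⟨_, rfl⟩
  have hk : 0 < k := by
    obtain ⟨x, hx⟩ := hN0
    have hx1 := hN x hx
    have hne : Nonempty ι := by
      by_contra hne
      rw [not_nonempty_iff] at hne
      simp at hx1
    rw [hkdef]
    exact_mod_cast Fintype.card_pos
  rw [← hℓdef, ← hkdef]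
  obtain ⟨SN, hSN⟩ : ∃ SN : ι → ℝ, ∀ b, SN b = ∑ x ∈ N, u b x := ⟨_, fun _ => rfl⟩
  obtain ⟨m, hm⟩ : ∃ m : ι → ℝ, ∀ b, m b = ∑ x ∈ N, (x b : ℝ) := ⟨_, fun _ => rfl⟩
  obtain ⟨q, hq⟩ : ∃ q : ι → ℝ, ∀ b, q b = ∑ x ∈ N, (x b : ℝ) ^ 2 := ⟨_, fun _ => rfl⟩
  obtain ⟨v, hv⟩ : ∃ v : ι → (ι → ℕ) → ℝ, ∀ b x, v b x = u b x - SN b / ℓ :=
    ⟨_, fun _ _ => rfl⟩
  obtain ⟨y, hy⟩ : ∃ y : ι → (ι → ℕ) → ℝ, ∀ b x, y b x = (x b : ℝ) - m b / ℓ :=
    ⟨_, fun _ _ => rfl⟩
  obtain ⟨E, hE⟩ : ∃ E : ι → ℝ, ∀ b, E b = ℓ * I b - ω b * SN b := ⟨_, fun _ => rfl⟩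
  obtain ⟨D, hD⟩ : ∃ D : ι → ℝ, ∀ b, D b = ω b * ℓ * (ω b + ℓ) := ⟨_, fun _ => rfl⟩
  simp only [← hSN, ← hE, ← hD]
  have hD0 : ∀ b, 0 ≤ D b := by
    intro b
    rw [hD]
    have := hω b
    positivity
  have hDE : ∀ b, D b = 0 → E b = 0 := by
    intro b hb
    rw [hD] at hb
    have hω0 : ω b = 0 := by
      rcases mul_eq_zero.mp hb with h | h
      · rcases mul_eq_zero.mp h with h' | h'
        · exact h'
        · exact absurd h' hℓ.ne'
      · have := hω b
        linarith
    rw [hE, hI b hω0, hω0]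
    ring
  -- sums of coordinates on the layer
  have hrow : ∀ x ∈ N, ∑ b, (x b : ℝ) = (R : ℝ) + 1 := by
    intro x hx
    have := hN x hx
    exact_mod_cast this
  have hSm : ∑ b, m b = ℓ * ((R : ℝ) + 1) := by
    simp only [hm]
    rw [Finset.sum_comm, Finset.sum_congr rfl hrow, Finset.sum_const, nsmul_eq_mul, hℓdef]
  have hy0 : ∀ x ∈ N, ∑ b, y b x = 0 := by
    intro x hx
    simp only [hy]
    rw [Finset.sum_sub_distrib, hrow x hx, ← Finset.sum_div, hSm]
    field_simp
    ring
  -- sums of squares on the layer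
  have hSSb : ∀ b, SS N (u b) = ∑ x ∈ N, v b x ^ 2 := by
    intro b
    rw [SS_eq_dev N (u b) hN0]
    refine Finset.sum_congr rfl (fun x _ => ?_)
    rw [hv, hSN, hℓdef]
  have hSSU : SS N (fun x => ∑ b, u b x) = ∑ x ∈ N, (∑ b, v b x) ^ 2 := by
    rw [SS_eq_dev N _ hN0]
    refine Finset.sum_congr rfl (fun x _ => ?_)
    congr 1
    simp only [hv]
    rw [Finset.sum_sub_distrib, ← Finset.sum_div, Finset.sum_comm (s := N), hℓdef]
    simp only [hSN]
  -- the linear functional
  have hyv : ∀ b, ∑ x ∈ N, y b x * v b x = ∑ x ∈ N, (x b : ℝ) * u b x - m b * SN b / ℓ := by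
    intro b
    have h1 : ∀ x ∈ N, y b x * v b x =
        (x b : ℝ) * u b x - SN b / ℓ * (x b : ℝ) - m b / ℓ * u b x + m b / ℓ * (SN b / ℓ) := by
      intro x _
      rw [hy, hv]
      ring
    rw [Finset.sum_congr rfl h1, Finset.sum_add_distrib, Finset.sum_sub_distrib,
      Finset.sum_sub_distrib, ← Finset.mul_sum, ← Finset.mul_sum, Finset.sum_const,
      nsmul_eq_mul, ← hm, ← hSN, ← hℓdef]
    field_simp
    ring
  have hT : ℓ * ∑ b, SG b - σ * ∑ x ∈ N, ∑ b, u b x =
      ℓ * ∑ x ∈ N, ∑ b, y b x * v b x + ∑ b, (sr b + 1) * E b := by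
    have h1 : ∀ b, ℓ * SG b - σ * SN b = ℓ * ∑ x ∈ N, y b x * v b x + (sr b + 1) * E b := by
      intro b
      rw [hyv b, hS b, hE b]
      have h2 := hσ b
      rw [← hm] at h2
      rw [h2]
      field_simp
      ring
    have h3 : ∑ x ∈ N, ∑ b, u b x = ∑ b, SN b := by
      rw [Finset.sum_comm]
      simp only [hSN]
    rw [h3, Finset.sum_comm (s := N), Finset.mul_sum, Finset.mul_sum, Finset.mul_sum,
      ← Finset.sum_sub_distrib, ← Finset.sum_add_distrib]
    exact Finset.sum_congr rfl (fun b _ => h1 b)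
  rw [hT, hSSU]
  simp only [hSSb]
  -- scalar abbreviations
  obtain ⟨a1, ha1⟩ : ∃ a1 : ℝ, a1 = ∑ x ∈ N, ∑ b, v b x ^ 2 := ⟨_, rfl⟩
  obtain ⟨a2, ha2⟩ : ∃ a2 : ℝ, a2 = ∑ x ∈ N, ∑ b, y b x * v b x := ⟨_, rfl⟩
  obtain ⟨a3, ha3⟩ : ∃ a3 : ℝ, a3 = ∑ x ∈ N, ∑ b, y b x ^ 2 := ⟨_, rfl⟩
  obtain ⟨a4, ha4⟩ : ∃ a4 : ℝ, a4 = ∑ x ∈ N, (∑ b, v b x) ^ 2 := ⟨_, rfl⟩
  obtain ⟨e1, he1⟩ : ∃ e1 : ℝ, e1 = ∑ b, E b ^ 2 / D b := ⟨_, rfl⟩
  obtain ⟨e2, he2⟩ : ∃ e2 : ℝ, e2 = ∑ b, (sr b + 1) * E b := ⟨_, rfl⟩
  obtain ⟨e3, he3⟩ : ∃ e3 : ℝ, e3 = ∑ b, (sr b + 1) ^ 2 * D b / k := ⟨_, rfl⟩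
  have hsplit : ∑ b, (∑ x ∈ N, v b x ^ 2 + E b ^ 2 / D b) = a1 + e1 := by
    rw [Finset.sum_add_distrib, Finset.sum_comm, ← ha1, ← he1]
  rw [hsplit, ← ha2, ← he2, ← ha4]
  -- the quadratic in t
  have hQ : ∀ t : ℝ, 0 ≤ (ℓ ^ 2 / k * a3 + e3) * (t * t) + (-2 * (ℓ * a2 + e2)) * t +
      (k * (a1 + e1) - a4) := by
    intro t
    have hpt : ∀ x ∈ N, 0 ≤ k * ∑ b, v b x ^ 2 - (∑ b, v b x) ^ 2
        - 2 * t * ℓ * ∑ b, y b x * v b x + t ^ 2 * ℓ ^ 2 / k * ∑ b, y b x ^ 2 := by
      intro x hx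
      have hcs := sq_sum_le_card_mul_sum_sq (s := (Finset.univ : Finset ι))
        (f := fun b => v b x - t * ℓ / k * y b x)
      rw [Finset.card_univ, ← hkdef] at hcs
      have hl : ∑ b, (v b x - t * ℓ / k * y b x) = ∑ b, v b x := by
        rw [Finset.sum_sub_distrib, ← Finset.mul_sum, hy0 x hx]
        ring
      have hr : ∑ b, (v b x - t * ℓ / k * y b x) ^ 2 =
          ∑ b, v b x ^ 2 - 2 * (t * ℓ / k) * ∑ b, y b x * v b x
            + (t * ℓ / k) ^ 2 * ∑ b, y b x ^ 2 := by
        rw [Finset.mul_sum, Finset.mul_sum, ← Finset.sum_sub_distrib, ← Finset.sum_add_distrib]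
        exact Finset.sum_congr rfl (fun b _ => by ring)
      rw [hl, hr] at hcs
      have hexp : k * (∑ b, v b x ^ 2 - 2 * (t * ℓ / k) * ∑ b, y b x * v b x
            + (t * ℓ / k) ^ 2 * ∑ b, y b x ^ 2) =
          k * ∑ b, v b x ^ 2 - 2 * t * ℓ * ∑ b, y b x * v b x
            + t ^ 2 * ℓ ^ 2 / k * ∑ b, y b x ^ 2 := by
        field_simp
      linarith [hcs, hexp]
    have harm : ∀ b, 0 ≤ k * (E b ^ 2 / D b) - 2 * t * ((sr b + 1) * E b)
        + t ^ 2 * ((sr b + 1) ^ 2 * D b / k) :=
      fun b => arm_nonneg k (D b) (E b) (sr b + 1) t hk (hD0 b) (hDE b)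
    have h1 := Finset.sum_nonneg hpt
    have h2 := Finset.sum_nonneg (fun b (_ : b ∈ (Finset.univ : Finset ι)) => harm b)
    rw [Finset.sum_add_distrib, Finset.sum_sub_distrib, Finset.sum_sub_distrib,
      ← Finset.mul_sum, ← Finset.mul_sum, ← Finset.mul_sum, ← ha1, ← ha2, ← ha3, ← ha4] at h1
    rw [Finset.sum_add_distrib, Finset.sum_sub_distrib, ← Finset.mul_sum, ← Finset.mul_sum,
      ← Finset.mul_sum, ← he1, ← he2, ← he3] at h2
    have hident : (ℓ ^ 2 / k * a3 + e3) * (t * t) + (-2 * (ℓ * a2 + e2)) * t +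
        (k * (a1 + e1) - a4) =
        (k * a1 - a4 - 2 * t * ℓ * a2 + t ^ 2 * ℓ ^ 2 / k * a3)
          + (k * e1 - 2 * t * e2 + t ^ 2 * e3) := by
      ring
    rw [hident]
    linarith [h1, h2]
  have hdisc := discrim_le_zero hQ
  rw [discrim] at hdisc
  have hZ : 0 ≤ k * (a1 + e1) - a4 := by
    have := hQ 0
    simpa using this
  -- the combinatorial comparison
  have hW : ℓ ^ 2 / k * a3 + e3 ≤ σ * ℓ * (σ + ℓ) := by
    have ha3' : a3 = ∑ b, (q b - m b ^ 2 / ℓ) := by
      rw [ha3, Finset.sum_comm]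
      refine Finset.sum_congr rfl (fun b _ => ?_)
      have h1 : ∀ x ∈ N, y b x ^ 2 =
          (x b : ℝ) ^ 2 - 2 * (m b / ℓ) * (x b : ℝ) + (m b / ℓ) ^ 2 := by
        intro x _
        rw [hy]
        ring
      rw [Finset.sum_congr rfl h1, Finset.sum_add_distrib, Finset.sum_sub_distrib,
        ← Finset.mul_sum, Finset.sum_const, nsmul_eq_mul, ← hm, ← hq, ← hℓdef]
      field_simp
      ring
    have haa : ∑ x ∈ N, ∑ b, (x b : ℝ) * (sr b + 1 - x b) = ∑ b, ((sr b + 1) * m b - q b) := by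
      rw [Finset.sum_comm]
      refine Finset.sum_congr rfl (fun b _ => ?_)
      have h1 : ∀ x ∈ N, (x b : ℝ) * (sr b + 1 - x b) = (sr b + 1) * (x b : ℝ) - (x b : ℝ) ^ 2 := by
        intro x _
        ring
      rw [Finset.sum_congr rfl h1, Finset.sum_sub_distrib, ← Finset.mul_sum, ← hm, ← hq]
    have hper : ∀ b, σ * ℓ * (σ + ℓ) - (ℓ ^ 2 * (q b - m b ^ 2 / ℓ) + (sr b + 1) ^ 2 * D b) =
        ℓ * (2 * σ * m b - sr b * σ * ℓ + ℓ * ((sr b + 1) * m b - q b)) := by
      intro b
      have h2 := hσ b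
      rw [← hm] at h2
      rw [hD]
      have h3 : ℓ ^ 2 * (q b - m b ^ 2 / ℓ) = ℓ ^ 2 * q b - ℓ * m b ^ 2 := by
        field_simp
      rw [h3]
      linear_combination (ℓ * (σ - m b + (sr b + 1) * ω b) + (sr b + 1) * ℓ ^ 2) * h2
    have hsum : k * (σ * ℓ * (σ + ℓ)) - (ℓ ^ 2 * a3 + k * e3) =
        ℓ * (2 * σ * (ℓ * ((R : ℝ) + 1)) - (∑ b, sr b) * σ * ℓ
          + ℓ * ∑ b, ((sr b + 1) * m b - q b)) := by
      have hk' : k * (σ * ℓ * (σ + ℓ)) = ∑ _b : ι, σ * ℓ * (σ + ℓ) := by
        rw [Finset.sum_const, Finset.card_univ, nsmul_eq_mul, hkdef]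
      have he3' : k * e3 = ∑ b, (sr b + 1) ^ 2 * D b := by
        rw [he3, Finset.mul_sum]
        refine Finset.sum_congr rfl (fun b _ => ?_)
        field_simp
      rw [hk', he3', ha3', ← hSm, Finset.mul_sum (a := ℓ ^ 2), ← Finset.sum_add_distrib,
        ← Finset.sum_sub_distrib, Finset.sum_congr rfl (fun b _ => hper b), ← Finset.mul_sum,
        Finset.sum_add_distrib, Finset.sum_sub_distrib, ← Finset.mul_sum, ← Finset.mul_sum,
        ← Finset.sum_mul, ← Finset.sum_mul]
    rw [haa] at hcomb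
    have hpos : 0 ≤ k * (σ * ℓ * (σ + ℓ)) - (ℓ ^ 2 * a3 + k * e3) := by
      rw [hsum]
      have : 0 ≤ 2 * σ * (ℓ * ((R : ℝ) + 1)) - (∑ b, sr b) * σ * ℓ
          + ℓ * ∑ b, ((sr b + 1) * m b - q b) := by
        nlinarith [hcomb, hℓ]
      positivity
    have hkW : k * (ℓ ^ 2 / k * a3 + e3) = ℓ ^ 2 * a3 + k * e3 := by
      field_simp
    have : k * (ℓ ^ 2 / k * a3 + e3) ≤ k * (σ * ℓ * (σ + ℓ)) := by
      rw [hkW]
      linarith [hpos]
    exact le_of_mul_le_mul_left this hk
  have hWpos : 0 < σ * ℓ * (σ + ℓ) := by positivity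
  rw [div_add' _ _ _ hWpos.ne', div_le_iff₀ hWpos]
  nlinarith [hdisc, hW, hZ, mul_le_mul_of_nonneg_right hW hZ]

/-- One arm of the right-hand side of the dual inequality. -/
noncomputable def armRHS (s : ι → ℕ) (R : ℕ) (b : ι) (ub : (ι → ℕ) → ℝ) : ℝ :=
  ∑ j ∈ Finset.range (s b + 1), SS ((Sig s R).filter (fun x => x b = j)) ub

/-- Increment of one arm of the right-hand side when the layer `R + 1` is added. -/
theorem arm_step (s : ι → ℕ) (R : ℕ) (b : ι) (ub : (ι → ℕ) → ℝ) (hub : Inv b ub) :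
    armRHS s (R + 1) b ub = armRHS s R b ub + SS (Lay s (R + 1)) ub +
      (((Lay s (R + 1)).card : ℝ) * ∑ x ∈ (Sig s R).filter (fun x => x b = s b), ub x
        - (((Sig s R).filter (fun x => x b = s b)).card : ℝ) * ∑ x ∈ Lay s (R + 1), ub x) ^ 2 /
      ((((Sig s R).filter (fun x => x b = s b)).card : ℝ) * (Lay s (R + 1)).card *
        ((((Sig s R).filter (fun x => x b = s b)).card : ℝ) + (Lay s (R + 1)).card)) := by
  unfold armRHS
  rw [Finset.sum_range_succ' (fun j => SS ((Sig s (R + 1)).filter (fun x => x b = j)) ub) (s b),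
    Finset.sum_range_succ (fun j => SS ((Sig s R).filter (fun x => x b = j)) ub) (s b)]
  have h1 : ∑ j ∈ Finset.range (s b), SS ((Sig s (R + 1)).filter (fun x => x b = j + 1)) ub
      = ∑ j ∈ Finset.range (s b), SS ((Sig s R).filter (fun x => x b = j)) ub := by
    refine Finset.sum_congr rfl (fun j hj => ?_)
    exact SS_congr_sums (fun φ => (tele s R b ub hub j (Finset.mem_range.mp hj) φ).symm)
  have hdisj : Disjoint ((Sig s R).filter (fun x => x b = s b)) (Lay s (R + 1)) :=
    Finset.disjoint_of_subset_left (Finset.filter_subset _ _) (Sig_Lay_disjoint s R)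
  have h2 : SS ((Sig s (R + 1)).filter (fun x => x b = 0)) ub
      = SS ((Sig s R).filter (fun x => x b = s b) ∪ Lay s (R + 1)) ub := by
    rw [Finset.union_comm]
    exact SS_congr_sums (fun φ => zero_slice s R b ub hub φ)
  rw [h1, h2, SS_union hdisj]
  ring

/-- **Dual star inequality on a solid.** For the uniform measure on the down-set
`Sig s R = {x : x b ≤ s b, ∑ x ≤ R}` and functions `u b` not depending on coordinate `b`,
the sum of squares about the mean of `∑_b u b` is at most `card ι` times the sum over arms `b`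
and levels `j` of the sums of squares of `u b` on the slices `x b = j`. -/
theorem solid_dual (s : ι → ℕ) (R : ℕ) (u : ι → (ι → ℕ) → ℝ)
    (hu : ∀ b x y, (∀ c, c ≠ b → x c = y c) → u b x = u b y) :
    SS (Sig s R) (fun x => ∑ b, u b x) ≤
      (Fintype.card ι : ℝ) * ∑ b, ∑ j ∈ Finset.range (s b + 1),
        SS ((Sig s R).filter (fun x => x b = j)) (u b) := by
  induction R with
  | zero =>
    have h0 : Sig s 0 = {fun _ => 0} := by
      ext x
      simp only [Sig, Finset.mem_filter, mem_box, Finset.mem_singleton]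
      constructor
      · rintro ⟨_, h2⟩
        funext b
        have h3 : ∑ c, x c = 0 := by omega
        exact (Finset.sum_eq_zero_iff.mp h3) b (Finset.mem_univ b)
      · rintro rfl
        simp
    have hL : SS (Sig s 0) (fun x => ∑ b, u b x) = 0 := by
      rw [h0]
      simp [SS]
    rw [hL]
    apply mul_nonneg (Nat.cast_nonneg _)
    apply Finset.sum_nonneg
    intro b _
    apply Finset.sum_nonneg
    intro j _
    exact SS_nonneg _ _
  | succ R ih =>
    rcases (Lay s (R + 1)).eq_empty_or_nonempty with hN | hN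
    · have h1 : Sig s (R + 1) = Sig s R := by
        rw [Sig_succ, hN, Finset.union_empty]
      rw [h1]
      exact ih
    · have hstepL := SS_union (Sig_Lay_disjoint s R) (fun x => ∑ b, u b x)
      rw [← Sig_succ] at hstepL
      have hstepR : ∀ b, armRHS s (R + 1) b (u b) = _ := fun b => arm_step s R b (u b) (hu b)
      have hSigEq : (box s).filter (fun x => ∑ c, x c < R + 1) = Sig s R := by
        unfold Sig
        exact Finset.filter_congr (fun x _ => Nat.lt_succ_iff)
      have hTEq : ∀ b, (box s).filter (fun x => x b = s b ∧ ∑ c, x c < R + 1) =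
          (Sig s R).filter (fun x => x b = s b) := by
        intro b
        unfold Sig
        rw [Finset.filter_filter]
        refine Finset.filter_congr (fun x _ => ?_)
        constructor
        · rintro ⟨h1, h2⟩
          exact ⟨by omega, h1⟩
        · rintro ⟨h1, h2⟩
          exact ⟨h2, by omega⟩
      have hcore := core_ineq (Lay s (R + 1)) R (fun x hx => (Finset.mem_filter.mp hx).2) hN u
        (fun b => (s b : ℝ))
        (fun b => (((Sig s R).filter (fun x => x b = s b)).card : ℝ))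
        (fun b => ∑ x ∈ (Sig s R).filter (fun x => x b = s b), u b x)
        (fun b => ∑ x ∈ Sig s R, u b x)
        ((Sig s R).card : ℝ) ?_ ?_ ?_ ?_ ?_ ?_
      · have hk : (Fintype.card ι : ℝ) * ∑ b, ∑ j ∈ Finset.range (s b + 1),
            SS ((Sig s (R + 1)).filter (fun x => x b = j)) (u b) =
            (Fintype.card ι : ℝ) * ∑ b, armRHS s (R + 1) b (u b) := rfl
        have hk' : (Fintype.card ι : ℝ) * ∑ b, ∑ j ∈ Finset.range (s b + 1),
            SS ((Sig s R).filter (fun x => x b = j)) (u b) =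
            (Fintype.card ι : ℝ) * ∑ b, armRHS s R b (u b) := rfl
        rw [hk'] at ih
        rw [hk, Finset.sum_congr rfl (fun b _ => hstepR b), hstepL]
        have hcomm : ∑ b, ∑ x ∈ Sig s R, u b x = ∑ x ∈ Sig s R, ∑ b, u b x := Finset.sum_comm
        rw [hcomm] at hcore
        simp only [Finset.sum_add_distrib, mul_add] at hcore ⊢
        linarith [hcore, ih]
      · have h0 : (fun _ => 0 : ι → ℕ) ∈ Sig s R := by
          simp [Sig, mem_box]
        exact_mod_cast Finset.card_pos.mpr ⟨_, h0⟩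
      · intro b
        exact Nat.cast_nonneg _
      · intro b h
        have h' : ((Sig s R).filter (fun x => x b = s b)).card = 0 := by exact_mod_cast h
        rw [Finset.card_eq_zero.mp h']
        simp
      · intro b
        have h := size_bias s b (fun _ => 1) (fun _ _ _ => rfl) (R + 1)
        rw [hSigEq, hTEq b] at h
        simp only [Finset.sum_const, nsmul_eq_mul, mul_one] at h
        exact h
      · intro b
        have h := size_bias s b (u b) (hu b) (R + 1)
        rw [hSigEq, hTEq b] at h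
        exact h
      · have h := aTr_bound s R
        unfold aTr at h
        exact h

end Vale.Agent.H69.CT
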